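import Vale.Agent.P225.Defs
import Mathlib.Analysis.Calculus.Deriv.MeanValue
import Mathlib.Analysis.SpecialFunctions.ExpDeriv
import Mathlib.Analysis.Calculus.Deriv.Pow
import Mathlib.Analysis.Calculus.Deriv.Inv
import Mathlib.MeasureTheory.Integral.IntervalIntegral.FundThmCalculus
import Mathlib.Tactic

open Set Filter Topology

namespace Vale.Agent.P225

lemma nonneg_of_deriv_nonneg {F F' : ℝ → ℝ} (hd : ∀ r, 0 < r → HasDerivAt F (F' r) r)
    (hc : ContinuousOn F (Ici 0)) (h0 : F 0 = 0) (h : ∀ r, 0 < r → 0 ≤ F' r) :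
    MonotoneOn F (Ici 0) ∧ ∀ r, 0 ≤ r → 0 ≤ F r := by
  have hm : MonotoneOn F (Ici 0) := monotoneOn_of_hasDerivWithinAt_nonneg (f' := F') (convex_Ici 0) hc
    (fun x hx => by
      rw [interior_Ici] at hx
      exact (hd x hx).hasDerivWithinAt)
    (fun x hx => by
      rw [interior_Ici] at hx
      exact h x hx)
  refine ⟨hm, fun r hr => ?_⟩
  have := hm self_mem_Ici hr hr
  linarith

section

variable {w : ℝ → ℝ}

lemma hasDerivAt_geoRad (hw : ContDiff ℝ 2 w) (r : ℝ) :
    HasDerivAt (geoRad w) (Real.exp (w r)) r :=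
  (Real.continuous_exp.comp hw.continuous).integral_hasStrictDerivAt 0 r |>.hasDerivAt

lemma geoRad_pos (hw : ContDiff ℝ 2 w) {r : ℝ} (hr : 0 < r) : 0 < geoRad w r :=
  intervalIntegral.intervalIntegral_pos_of_pos
    ((Real.continuous_exp.comp hw.continuous).intervalIntegrable _ _) (fun _ => Real.exp_pos _) hr

lemma geoRad_nonneg (hw : ContDiff ℝ 2 w) {r : ℝ} (hr : 0 ≤ r) : 0 ≤ geoRad w r := by
  rcases eq_or_lt_of_le hr with h | h
  · simp [geoRad, ← h]
  · exact (geoRad_pos hw h).le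

/-- The warping function `r e^{w(r)}` is at most the geodesic radius, and its derivative in the
geodesic radius is at most the quotient of the two. -/
lemma warp_bounds (hw : ContDiff ℝ 2 w)
    (hp : ∀ r : ℝ, 0 ≤ r → deriv (fun s => 1 + s * deriv w s) r ≤ 0) {r : ℝ} (hr : 0 ≤ r) :
    r * Real.exp (w r) ≤ geoRad w r ∧
      (1 + r * deriv w r) * geoRad w r ≤ r * Real.exp (w r) := by
  have hw' : ContDiff ℝ 1 (deriv w) := hw.deriv'
  have hP : ∀ s, HasDerivAt (fun s => 1 + s * deriv w s)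
      (deriv (fun s => 1 + s * deriv w s) s) s := fun s =>
    (differentiableAt_const _ |>.add
      (differentiableAt_id.mul (hw'.differentiable (by norm_num) s))).hasDerivAt
  have hW : ∀ s, HasDerivAt w (deriv w s) s := fun s =>
    (hw.differentiable (by norm_num) s).hasDerivAt
  have hmono : ∀ s, 0 ≤ s → s * deriv w s ≤ 0 := by
    intro s hs
    have := (nonneg_of_deriv_nonneg (F := fun s => 1 - (1 + s * deriv w s))
      (F' := fun s => -deriv (fun s => 1 + s * deriv w s) s)
      (fun t _ => (hP t).const_sub 1)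
      (by have := hw'.continuous; fun_prop) (by simp)
      (fun t ht => neg_nonneg.2 (hp t ht.le))).2 s hs
    simp only [sub_nonneg] at this
    linarith
  have hf : ∀ s, HasDerivAt (fun s => s * Real.exp (w s))
      (Real.exp (w s) * (1 + s * deriv w s)) s := fun s =>
    ((hasDerivAt_id' s).fun_mul (hW s).exp).congr_deriv (by ring)
  have hc : Continuous (geoRad w) :=
    continuous_iff_continuousAt.2 fun s => (hasDerivAt_geoRad hw s).continuousAt
  have hc' := hw'.continuous
  have hcw := hw.continuous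
  refine ⟨?_, ?_⟩
  · have := (nonneg_of_deriv_nonneg (F := fun s => geoRad w s - s * Real.exp (w s))
      (fun t _ => (hasDerivAt_geoRad hw t).fun_sub (hf t)) (by fun_prop) (by simp [geoRad])
      (fun t ht => by nlinarith [Real.exp_pos (w t), hmono t ht.le])).2 r hr
    linarith
  · have := (nonneg_of_deriv_nonneg
      (F := fun s => s * Real.exp (w s) - (1 + s * deriv w s) * geoRad w s)
      (fun t _ => (hf t).fun_sub ((hP t).fun_mul (hasDerivAt_geoRad hw t)))
      (by fun_prop) (by simp [geoRad])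
      (fun t ht => by nlinarith [hp t ht.le, geoRad_nonneg hw ht.le])).2 r hr
    linarith

/-- Monotonicity of the square of a solution of the radial equation. -/
lemma sq_monotone (hw : ContDiff ℝ 2 w) (N l : ℕ) {ψ ψ1 ψ2 : ℝ → ℝ}
    (hψ : ∀ r, HasDerivAt ψ (ψ1 r) r) (hψ1 : ∀ r, HasDerivAt ψ1 (ψ2 r) r)
    (hode : ∀ r, 0 < r → r ^ 2 * ψ2 r + ((N + 1 : ℝ) + N * r * deriv w r) * r * ψ1 r
      = (l : ℝ) * (N + l) * ψ r) : MonotoneOn (fun r => ψ r ^ 2) (Ici 0) := by
  have hW : ∀ s, HasDerivAt w (deriv w s) s := fun s =>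
    (hw.differentiable (by norm_num) s).hasDerivAt
  have cψ : Continuous ψ := continuous_iff_continuousAt.2 fun r => (hψ r).continuousAt
  have cψ1 : Continuous ψ1 := continuous_iff_continuousAt.2 fun r => (hψ1 r).continuousAt
  have cw := hw.continuous
  let A : ℝ → ℝ := fun r => r ^ (N + 1) * Real.exp (N * w r)
  have hh := (nonneg_of_deriv_nonneg (F := fun r => A r * ψ1 r * ψ r)
    (F' := fun r => A r * ψ1 r ^ 2 + (l : ℝ) * (N + l) * A r * ψ r ^ 2 / r ^ 2)
    (fun r hr => by
      refine ((((hasDerivAt_pow (N + 1) r).fun_mul ((hW r).const_mul (N : ℝ)).exp).fun_mul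
        (hψ1 r)).fun_mul (hψ r)).congr_deriv ?_
      have h := hode r hr
      simp only [A, Nat.add_sub_cancel]
      push_cast
      field_simp
      linear_combination (r ^ (N + 1) * ψ r) * h)
    (by fun_prop) (by simp [A])
    (fun r hr => by positivity)).2
  intro a ha b hb hab
  refine monotoneOn_of_hasDerivWithinAt_nonneg (f' := fun r => 2 * (ψ r * ψ1 r)) (convex_Ici 0)
    (by fun_prop) (fun x _ => ((hψ x).fun_pow 2).hasDerivWithinAt.congr_deriv (by ring))
    (fun x hx => ?_) ha hb hab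
  rw [interior_Ici] at hx
  have h1 := hh x (le_of_lt hx)
  have hA : 0 < A x := mul_pos (pow_pos hx _) (Real.exp_pos _)
  have : 0 ≤ ψ x * ψ1 x := by
    by_contra hneg
    have := mul_neg_of_pos_of_neg hA (not_le.1 hneg)
    linarith [show A x * ψ1 x * ψ x = A x * (ψ x * ψ1 x) by ring]
  linarith

/-- A moment of growth rate below its degree vanishes. -/
lemma radial_vanish (hw : ContDiff ℝ 2 w)
    (hp : ∀ r : ℝ, 0 ≤ r → deriv (fun s => 1 + s * deriv w s) r ≤ 0)
    (hR : Tendsto (geoRad w) atTop atTop) (N l : ℕ) {d C : ℝ} (hd0 : 0 ≤ d) (hd : d < l)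
    {ψ ψ1 ψ2 : ℝ → ℝ}
    (hψ : ∀ r, HasDerivAt ψ (ψ1 r) r) (hψ1 : ∀ r, HasDerivAt ψ1 (ψ2 r) r)
    (hode : ∀ r, 0 < r → r ^ 2 * ψ2 r + ((N + 1 : ℝ) + N * r * deriv w r) * r * ψ1 r
      = (l : ℝ) * (N + l) * ψ r)
    (hg : ∀ r, 0 ≤ r → |ψ r| ≤ C * (1 + geoRad w r) ^ d) :
    ∀ r, 0 < r → ψ r = 0 := by
  have hsq := sq_monotone hw N l hψ hψ1 hode
  intro r0 hr0
  by_contra hne
  obtain ⟨L, rfl⟩ : ∃ L, l = L + 1 := by
    refine ⟨l - 1, ?_⟩
    rcases Nat.eq_zero_or_pos l with h | h
    · subst h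
      simp only [Nat.cast_zero] at hd
      linarith
    · omega
  set σ := ψ r0 with hσ
  have cψ : Continuous ψ := continuous_iff_continuousAt.2 fun r => (hψ r).continuousAt
  have cψ1 : Continuous ψ1 := continuous_iff_continuousAt.2 fun r => (hψ1 r).continuousAt
  have hsign : ∀ r, 0 ≤ r → 0 ≤ σ * ψ r := by
    intro r hr
    by_contra hlt
    push Not at hlt
    rcases le_total r r0 with hle | hle
    · obtain ⟨z, hz, hz0⟩ := intermediate_value_Icc hle (cψ.const_smul σ).continuousOn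
        (show (0 : ℝ) ∈ Icc (σ • ψ r) (σ • ψ r0) by
          rw [smul_eq_mul, smul_eq_mul, ← hσ]
          exact ⟨hlt.le, mul_self_nonneg σ⟩)
      simp only [Pi.smul_apply, smul_eq_mul, mul_eq_zero, hne, false_or] at hz0
      have h1 : ψ r ^ 2 ≤ ψ z ^ 2 := hsq hr (hr.trans hz.1) hz.1
      rw [hz0] at h1
      have : ψ r = 0 := sq_eq_zero_iff.1 (le_antisymm (by simpa using h1) (sq_nonneg _))
      rw [this, mul_zero] at hlt
      exact lt_irrefl 0 hlt
    · obtain ⟨z, hz, hz0⟩ := intermediate_value_Icc' hle (cψ.const_smul σ).continuousOn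
        (show (0 : ℝ) ∈ Icc (σ • ψ r) (σ • ψ r0) by
          rw [smul_eq_mul, smul_eq_mul, ← hσ]
          exact ⟨hlt.le, mul_self_nonneg σ⟩)
      simp only [Pi.smul_apply, smul_eq_mul, mul_eq_zero, hne, false_or] at hz0
      have h1 : σ ^ 2 ≤ ψ z ^ 2 := hsq hr0.le (hr0.le.trans hz.1) hz.1
      rw [hz0] at h1
      exact hne (sq_eq_zero_iff.1 (le_antisymm (by simpa using h1) (sq_nonneg _)))
  let R := geoRad w
  have dR : ∀ r, HasDerivAt R (Real.exp (w r)) r := hasDerivAt_geoRad hw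
  have cR : Continuous R := continuous_iff_continuousAt.2 fun s => (dR s).continuousAt
  have hW : ∀ s, HasDerivAt w (deriv w s) s := fun s =>
    (hw.differentiable (by norm_num) s).hasDerivAt
  have cw := hw.continuous
  let A : ℝ → ℝ := fun r => r ^ (N + 1) * Real.exp (N * w r)
  let Q : ℝ → ℝ := fun r =>
    σ * (A r * ψ1 r * R r ^ (L + 1) - ψ r * ((L + 1 : ℝ) * A r * R r ^ L * Real.exp (w r)))
  let B : ℝ → ℝ := fun r => A r / r * ((N + 1 : ℝ) + N * r * deriv w r) * R r ^ L * Real.exp (w r)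
    + A r * (L * R r ^ (L - 1) * Real.exp (w r)) * Real.exp (w r)
    + A r * R r ^ L * (Real.exp (w r) * deriv w r)
  have hQ := (nonneg_of_deriv_nonneg (F := Q)
    (F' := fun r => σ * ψ r * (((L : ℝ) + 1) * (N + (L + 1)) * A r * R r ^ (L + 1) / r ^ 2
      - ((L : ℝ) + 1) * B r))
    (fun r hr => by
      have a := (hasDerivAt_pow (N + 1) r).fun_mul ((hW r).const_mul (N : ℝ)).exp
      refine (((a.fun_mul (hψ1 r)).fun_mul ((dR r).fun_pow (L + 1))).fun_sub
        ((hψ r).fun_mul (((a.const_mul ((L : ℝ) + 1)).fun_mul ((dR r).fun_pow L)).fun_mul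
          (hW r).exp)) |>.const_mul σ).congr_deriv ?_
      have h := hode r hr
      push_cast at h
      simp only [A, B, Nat.add_sub_cancel]
      push_cast
      field_simp
      linear_combination (R r ^ (L + 1) * r ^ (N + 1)) * h)
    (by fun_prop) (by simp [Q, A])
    (fun r hr => by
      refine mul_nonneg (hsign r hr.le) (sub_nonneg.2 ?_)
      obtain ⟨h1, h2⟩ := warp_bounds hw hp hr.le
      have hRp : 0 < R r := geoRad_pos hw hr
      have hA : 0 < A r := mul_pos (pow_pos hr _) (Real.exp_pos _)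
      have hm : (L : ℝ) * R r ^ (L - 1) * R r = L * R r ^ L := by
        rcases Nat.eq_zero_or_pos L with h | h
        · simp [h]
        · rw [mul_assoc, ← pow_succ, show L - 1 + 1 = L by omega]
      have e : B r * (r * R r) = A r * R r ^ L * Real.exp (w r) *
          ((N + 1 : ℝ) * ((1 + r * deriv w r) * R r) + L * (r * Real.exp (w r))) := by
        simp only [B]
        field_simp
        linear_combination (r * Real.exp (w r)) * hm
      rw [mul_assoc ((L : ℝ) + 1), mul_assoc ((L : ℝ) + 1), mul_div_assoc]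
      refine mul_le_mul_of_nonneg_left ?_ (by positivity)
      rw [le_div_iff₀ (by positivity)]
      refine le_of_mul_le_mul_right ?_ hRp
      calc B r * r ^ 2 * R r = (B r * (r * R r)) * r := by ring
        _ ≤ A r * R r ^ L * Real.exp (w r) *
            (((N : ℝ) + (L + 1)) * (r * Real.exp (w r))) * r := by
          rw [e]
          refine mul_le_mul_of_nonneg_right (mul_le_mul_of_nonneg_left ?_ (by positivity)) hr.le
          nlinarith
        _ = ((N : ℝ) + (L + 1)) * A r * R r ^ L * (r * Real.exp (w r)) ^ 2 := by ring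
        _ ≤ ((N : ℝ) + (L + 1)) * A r * R r ^ L * R r ^ 2 :=
          mul_le_mul_of_nonneg_left (pow_le_pow_left₀ (by positivity) h1 2) (by positivity)
        _ = _ := by ring)).2
  have hmono : MonotoneOn (fun r => σ * ψ r / R r ^ (L + 1)) (Ici r0) := by
    have hne' : ∀ x ∈ Ici r0, R x ^ (L + 1) ≠ 0 := fun x hx =>
      pow_ne_zero _ (geoRad_pos hw (hr0.trans_le hx)).ne'
    refine monotoneOn_of_hasDerivWithinAt_nonneg (convex_Ici r0)
      (((continuous_const.mul cψ).continuousOn).div (cR.pow _).continuousOn hne')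
      (fun x hx => (((hψ x).const_mul σ).fun_div ((dR x).fun_pow (L + 1))
        (hne' x (interior_subset hx))).hasDerivWithinAt) (fun x hx => ?_)
    have hx0 : 0 < x := hr0.trans_le (interior_subset hx)
    have hA : 0 < A x := mul_pos (pow_pos hx0 _) (Real.exp_pos _)
    refine div_nonneg ?_ (sq_nonneg _)
    rw [Nat.add_sub_cancel]
    push_cast
    refine nonneg_of_mul_nonneg_right (a := A x) ?_ hA
    have := hQ x hx0.le
    simp only [Q] at this
    linarith [show σ * (A x * ψ1 x * R x ^ (L + 1)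
        - ψ x * ((L + 1 : ℝ) * A x * R x ^ L * Real.exp (w x)))
      = A x * (σ * ψ1 x * R x ^ (L + 1) - σ * ψ x * (((L : ℝ) + 1) * R x ^ L * Real.exp (w x)))
      by ring]
  set c0 := σ * ψ r0 / R r0 ^ (L + 1) with hc0
  have c0pos : 0 < c0 :=
    div_pos (mul_self_pos.2 hne) (pow_pos (geoRad_pos hw hr0) _)
  have hgrow : Tendsto (fun r => c0 * R r ^ (((L + 1 : ℕ) : ℝ) - d)) atTop atTop :=
    ((tendsto_rpow_atTop (by linarith)).comp hR).const_mul_atTop c0pos
  obtain ⟨r, hr1, hr2, hr3⟩ := ((tendsto_atTop.1 hR 1).and ((eventually_ge_atTop r0).and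
    (tendsto_atTop.1 hgrow (|σ| * C * 2 ^ d + 1)))).exists
  have hRpos : 0 < R r := lt_of_lt_of_le one_pos hr1
  have h1 : c0 * R r ^ (L + 1) ≤ σ * ψ r :=
    (le_div_iff₀ (pow_pos hRpos _)).1 (hmono self_mem_Ici hr2 hr2)
  have h2 : σ * ψ r ≤ |σ| * (C * (1 + R r) ^ d) := by
    calc σ * ψ r ≤ |σ * ψ r| := le_abs_self _
      _ = |σ| * |ψ r| := abs_mul _ _
      _ ≤ _ := mul_le_mul_of_nonneg_left (hg r (hr0.le.trans hr2)) (abs_nonneg _)
  have h3 : (1 + R r) ^ d ≤ 2 ^ d * R r ^ d := by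
    rw [← Real.mul_rpow (by norm_num) hRpos.le]
    exact Real.rpow_le_rpow (by linarith) (by linarith) hd0
  have hC : 0 ≤ C := by
    have := hg r (hr0.le.trans hr2)
    exact nonneg_of_mul_nonneg_left ((abs_nonneg _).trans this) (Real.rpow_pos_of_pos (by linarith) _)
  have h4 : R r ^ (L + 1) = R r ^ (((L + 1 : ℕ) : ℝ) - d) * R r ^ d := by
    rw [← Real.rpow_add hRpos, sub_add_cancel, Real.rpow_natCast]
  have hpos : 0 < R r ^ d := Real.rpow_pos_of_pos hRpos _
  have := h1.trans (h2.trans (mul_le_mul_of_nonneg_left (mul_le_mul_of_nonneg_left h3 hC) (abs_nonneg _)))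
  rw [h4] at this
  change |σ| * C * 2 ^ d + 1 ≤ c0 * R r ^ (((L + 1 : ℕ) : ℝ) - d) at hr3
  nlinarith [mul_le_mul_of_nonneg_right hr3 hpos.le]

end

end Vale.Agent.P225
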