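import Vale.Agent.P225.Calc
import Mathlib.Analysis.Calculus.ParametricIntegral
import Mathlib.Analysis.Distribution.AEEqOfIntegralContDiff
import Mathlib.MeasureTheory.Integral.IntegralEqImproper
import Mathlib.Analysis.SpecialFunctions.Sqrt

open MeasureTheory Set Metric MvPolynomial Filter Topology
open scoped ContDiff

namespace Vale.Agent.P225

variable {n : ℕ}

lemma continuous_sphere_integral {F : ℝ → Sph n → ℝ}
    (hF : Continuous (Function.uncurry F)) : Continuous fun r => ∫ θ, F r θ ∂(sig n) := by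
  refine continuous_iff_continuousAt.2 fun r => ?_
  obtain ⟨B, hB⟩ := ((isCompact_closedBall r 1).prod isCompact_univ).exists_bound_of_continuousOn
    hF.continuousOn
  refine continuousAt_of_dominated (bound := fun _ => B) (.of_forall fun s =>
    (integrable_sig (hF.comp (continuous_const.prodMk continuous_id))).1) ?_
    (integrable_const B) (.of_forall fun θ => ?_)
  · filter_upwards [closedBall_mem_nhds r one_pos] with s hs
    exact .of_forall fun θ => hB (s, θ) ⟨hs, mem_univ θ⟩
  · exact (hF.comp (continuous_id.prodMk continuous_const)).continuousAt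

lemma hasDerivAt_sphere_integral {F F' : ℝ → Sph n → ℝ}
    (hF : Continuous (Function.uncurry F)) (hF' : Continuous (Function.uncurry F'))
    (h : ∀ r θ, HasDerivAt (fun s => F s θ) (F' r θ) r) (r : ℝ) :
    HasDerivAt (fun s => ∫ θ, F s θ ∂(sig n)) (∫ θ, F' r θ ∂(sig n)) r := by
  obtain ⟨B, hB⟩ := ((isCompact_closedBall r 1).prod isCompact_univ).exists_bound_of_continuousOn
    hF'.continuousOn
  refine (hasDerivAt_integral_of_dominated_loc_of_deriv_le (bound := fun _ => B) (F := F) (F' := F')
    (closedBall_mem_nhds r one_pos) (.of_forall fun s =>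
      (integrable_sig (hF.comp (continuous_const.prodMk continuous_id))).1)
    (integrable_sig (hF.comp (continuous_const.prodMk continuous_id)))
    (integrable_sig (hF'.comp (continuous_const.prodMk continuous_id))).1
    (.of_forall fun θ s hs => hB (s, θ) ⟨hs, mem_univ θ⟩) (integrable_const B)
    (.of_forall fun θ s _ => h s θ)).2

/-- Spherical moment of a function against a polynomial. -/
noncomputable def mom (u : Space n → ℝ) (Y : MvPolynomial (Fin n) ℝ) (r : ℝ) : ℝ :=
  ∫ θ : Sph n, u (r • (θ : Space n)) * evalFun Y θ ∂(sig n)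

/-- Radial derivative of the spherical moment. -/
noncomputable def mom1 (u : Space n → ℝ) (Y : MvPolynomial (Fin n) ℝ) (r : ℝ) : ℝ :=
  ∫ θ : Sph n, fderiv ℝ u (r • (θ : Space n)) θ * evalFun Y θ ∂(sig n)

/-- Second radial derivative of the spherical moment. -/
noncomputable def mom2 (u : Space n → ℝ) (Y : MvPolynomial (Fin n) ℝ) (r : ℝ) : ℝ :=
  ∫ θ : Sph n, fderiv ℝ (fderiv ℝ u) (r • (θ : Space n)) θ θ * evalFun Y θ ∂(sig n)

lemma continuous_smul_sph : Continuous fun z : ℝ × Sph n => z.1 • (z.2 : Space n) :=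
  continuous_fst.smul (continuous_subtype_val.comp continuous_snd)

lemma hasDerivAt_mom {u : Space n → ℝ} (hu : ContDiff ℝ 2 u) (Y : MvPolynomial (Fin n) ℝ)
    (r : ℝ) : HasDerivAt (mom u Y) (mom1 u Y r) r := by
  have hY : Continuous fun z : ℝ × Sph n => evalFun Y (z.2 : Space n) :=
    (contDiff_evalFun Y (m := 0)).continuous.comp (continuous_subtype_val.comp continuous_snd)
  have hθ : Continuous fun z : ℝ × Sph n => (z.2 : Space n) :=
    continuous_subtype_val.comp continuous_snd
  refine hasDerivAt_sphere_integral (F := fun s (θ : Sph n) => u (s • (θ : Space n)) * evalFun Y θ)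
    (F' := fun s (θ : Sph n) => fderiv ℝ u (s • (θ : Space n)) θ * evalFun Y θ)
    ((hu.continuous.comp continuous_smul_sph).mul hY)
    ((((hu.continuous_fderiv (by norm_num)).comp continuous_smul_sph).clm_apply hθ).mul hY)
    (fun s θ => ?_) r
  have h := ((hasDerivAt_id s).smul_const (θ : Space n))
  rw [one_smul] at h
  exact ((hu.differentiable (by norm_num) (s • (θ : Space n))).hasFDerivAt.comp_hasDerivAt s h
    ).mul_const _

lemma continuous_mom2 {u : Space n → ℝ} (hu : ContDiff ℝ 2 u) (Y : MvPolynomial (Fin n) ℝ) :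
    Continuous (mom2 u Y) := by
  have h1 : ContDiff ℝ 1 (fderiv ℝ u) := hu.fderiv_right (by norm_num)
  have hθ : Continuous fun z : ℝ × Sph n => (z.2 : Space n) :=
    continuous_subtype_val.comp continuous_snd
  exact continuous_sphere_integral
    (((((h1.continuous_fderiv (by norm_num)).comp continuous_smul_sph).clm_apply hθ).clm_apply
      hθ).mul ((contDiff_evalFun Y (m := 0)).continuous.comp hθ))

lemma hasDerivAt_mom1 {u : Space n → ℝ} (hu : ContDiff ℝ 2 u) (Y : MvPolynomial (Fin n) ℝ)
    (r : ℝ) : HasDerivAt (mom1 u Y) (mom2 u Y r) r := by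
  have h1 : ContDiff ℝ 1 (fderiv ℝ u) := hu.fderiv_right (by norm_num)
  have hθ : Continuous fun z : ℝ × Sph n => (z.2 : Space n) :=
    continuous_subtype_val.comp continuous_snd
  refine hasDerivAt_sphere_integral
    (F := fun s (θ : Sph n) => fderiv ℝ u (s • (θ : Space n)) θ * evalFun Y θ)
    (F' := fun s (θ : Sph n) => fderiv ℝ (fderiv ℝ u) (s • (θ : Space n)) θ θ * evalFun Y θ)
    ((((hu.continuous_fderiv (by norm_num)).comp continuous_smul_sph).clm_apply hθ).mul
      ((contDiff_evalFun Y (m := 0)).continuous.comp hθ))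
    (((((h1.continuous_fderiv (by norm_num)).comp continuous_smul_sph).clm_apply hθ).clm_apply
      hθ).mul ((contDiff_evalFun Y (m := 0)).continuous.comp hθ))
    (fun s θ => ?_) r
  have h : HasDerivAt (fun t : ℝ => t • (θ : Space n)) (θ : Space n) s := by
    simpa using (hasDerivAt_id s).smul_const (θ : Space n)
  have h3 : HasFDerivAt (fun L : Space n →L[ℝ] ℝ => L (θ : Space n))
      (ContinuousLinearMap.apply ℝ ℝ (θ : Space n)) (fderiv ℝ u (s • (θ : Space n))) :=
    (ContinuousLinearMap.apply ℝ ℝ (θ : Space n)).hasFDerivAt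
  have h2 : HasDerivAt (fun t : ℝ => fderiv ℝ u (t • (θ : Space n)))
      (fderiv ℝ (fderiv ℝ u) (s • (θ : Space n)) θ) s :=
    (h1.differentiable (by norm_num) (s • (θ : Space n))).hasFDerivAt.comp_hasDerivAt s h
  exact (h3.comp_hasDerivAt s h2).mul_const (evalFun Y (θ : Space n))

lemma norm_smul_sph {r : ℝ} (hr : 0 ≤ r) (θ : Sph n) : ‖r • (θ : Space n)‖ = r := by
  rw [norm_smul, norm_eq_of_mem_sphere, mul_one, Real.norm_eq_abs, abs_of_nonneg hr]

lemma mom_ode {w : ℝ → ℝ} (hw : ContDiff ℝ 2 w) (N l : ℕ) {u : Space (N + 2) → ℝ}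
    (hu : IsRotHarmonic w u) {Y : MvPolynomial (Fin (N + 2)) ℝ} (hY : Y.IsHomogeneous l)
    (hl : lapP Y = 0) {r : ℝ} (hr : 0 < r) :
    r ^ 2 * mom2 u Y r + ((N + 1 : ℝ) + N * r * deriv w r) * r * mom1 u Y r
      = (l : ℝ) * (N + l) * mom u Y r := by
  obtain ⟨hu, heq⟩ := hu
  set ψ := mom u Y
  set ψ1 := mom1 u Y
  set ψ2 := mom2 u Y
  have hψ : ∀ r, HasDerivAt ψ (ψ1 r) r := hasDerivAt_mom hu Y
  have hψ1 : ∀ r, HasDerivAt ψ1 (ψ2 r) r := hasDerivAt_mom1 hu Y
  have cψ : Continuous ψ := continuous_iff_continuousAt.2 fun r => (hψ r).continuousAt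
  have cψ1 : Continuous ψ1 := continuous_iff_continuousAt.2 fun r => (hψ1 r).continuousAt
  have cψ2 : Continuous ψ2 := continuous_mom2 hu Y
  have cw : Continuous (deriv w) := hw.continuous_deriv (by norm_num)
  obtain ⟨M, hM⟩ : ∃ M, M = N + l := ⟨_, rfl⟩
  let T : ℝ → ℝ := fun r => r ^ (M + 1) * ψ1 r - l * (r ^ M * ψ r)
  let T' : ℝ → ℝ := fun r => ((M + 1 : ℕ) * r ^ M * ψ1 r + r ^ (M + 1) * ψ2 r)
    - l * (M * r ^ (M - 1) * ψ r + r ^ M * ψ1 r)
  have hT : ∀ r, HasDerivAt T (T' r) r := fun r => by
    have e1 := (hasDerivAt_pow (M + 1) r).fun_mul (hψ1 r)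
    have e2 := ((hasDerivAt_pow M r).fun_mul (hψ r)).const_mul (l : ℝ)
    rw [Nat.add_sub_cancel] at e1
    exact e1.sub e2
  have cT : Continuous T := continuous_iff_continuousAt.2 fun r => (hT r).continuousAt
  let g : ℝ → ℝ := fun r => T' r + N * deriv w r * (r ^ (M + 1) * ψ1 r)
  have cT' : Continuous T' := by fun_prop
  have cg : Continuous g := by fun_prop
  have hweak : ∀ χ : ℝ → ℝ, ContDiff ℝ ∞ χ → HasCompactSupport χ → tsupport χ ⊆ Ioi 0 →
      ∫ x, χ x • g x = 0 := by
    intro χ hχ hc hs
    obtain ⟨B, hB⟩ : ∃ B, 0 < B ∧ ∀ x, B ≤ |x| → χ x = 0 := by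
      obtain ⟨B, hB⟩ := hc.isBounded.subset_closedBall 0
      refine ⟨|B| + 1, by positivity, fun x hx => ?_⟩
      by_contra h
      have := hB (subset_tsupport _ h)
      rw [Metric.mem_closedBall, Real.dist_0_eq_abs] at this
      linarith [le_abs_self B]
    let η : ℝ → ℝ := fun s => χ (√s)
    have h0 : χ =ᶠ[𝓝 0] 0 :=
      (notMem_tsupport_iff_eventuallyEq).1 fun h => (lt_irrefl (0 : ℝ)) (hs h)
    have hη : ContDiff ℝ 2 η := by
      rw [contDiff_iff_contDiffAt]
      intro s
      by_cases hs0 : s = 0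
      · subst hs0
        have : η =ᶠ[𝓝 (0 : ℝ)] fun _ => 0 := by
          have ht : Tendsto Real.sqrt (𝓝 0) (𝓝 0) := by
            simpa using Real.continuous_sqrt.tendsto 0
          exact ht.eventually h0
        exact contDiffAt_const.congr_of_eventuallyEq this
      · exact ((hχ.of_le (WithTop.coe_le_coe.2 le_top)).contDiffAt).comp s
          (Real.contDiffAt_sqrt hs0)
    have hηc : HasCompactSupport η := by
      refine HasCompactSupport.intro (isCompact_Icc (a := 0) (b := B ^ 2)) fun s hsI => ?_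
      by_cases hs0 : 0 ≤ s
      · refine hB.2 _ ?_
        have hlt : B ^ 2 < s := not_le.1 fun h => hsI ⟨hs0, h⟩
        rw [abs_of_nonneg (Real.sqrt_nonneg s), Real.le_sqrt hB.1.le hs0]
        exact hlt.le
      · have : √s = 0 := Real.sqrt_eq_zero'.2 (le_of_not_ge hs0)
        simp [η, this, h0.eq_of_nhds]
    have hχη : ∀ r, 0 ≤ r → η (r ^ 2) = χ r := fun r hr => by simp [η, Real.sqrt_sq hr]
    have hf := contDiff_rp hη Y
    have hfc : HasCompactSupport (rp η Y) := hasCompactSupport_rp hηc Y
    have E := green hf hfc hu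
    rw [integral_polar (F := fun x => rp η Y x * lap u x) (by omega)
        ((hf.continuous.mul (continuous_lap hu)).integrable_of_hasCompactSupport hfc.mul_right),
      integral_polar (F := fun x => lap (rp η Y) x * u x) (by omega) (((continuous_lap hf).mul hu.continuous).integrable_of_hasCompactSupport
        ((HasCompactSupport.intro hfc.isCompact fun x hx => ?_).mul_right))] at E
    swap
    · have : rp η Y =ᶠ[𝓝 x] 0 := notMem_tsupport_iff_eventuallyEq.1 hx
      have hp : ∀ i, pd i (rp η Y) =ᶠ[𝓝 x] 0 := fun i => by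
        filter_upwards [this.eventuallyEq_nhds] with y hy
        simp [pd, hy.fderiv_eq]
      simp [lap, pd, (hp _).fderiv_eq]
    let br : ℝ → ℝ := fun r => 4 * r ^ 2 * deriv (deriv η) (r ^ 2)
      + (2 * ((N + 2 : ℕ) : ℝ) + 4 * l) * deriv η (r ^ 2)
    have hL : ∀ r ∈ Ioi (0 : ℝ), r ^ (N + 2 - 1) * ∫ θ : Sph (N + 2),
        rp η Y (r • (θ : Space (N + 2))) * lap u (r • (θ : Space (N + 2))) ∂(sig (N + 2))
        = -((N : ℝ) * η (r ^ 2) * deriv w r * r ^ (M + 1) * ψ1 r) := by
      intro r hr
      have : ∀ θ : Sph (N + 2), rp η Y (r • (θ : Space (N + 2))) * lap u (r • (θ : Space (N + 2)))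
          = -((N : ℝ) * η (r ^ 2) * deriv w r * r ^ l)
            * (fderiv ℝ u (r • (θ : Space (N + 2))) θ * evalFun Y θ) := by
        intro θ
        have hne : r • (θ : Space (N + 2)) ≠ 0 := smul_ne_zero hr.ne' (ne_zero_of_mem_unit_sphere θ)
        have h := heq _ hne
        rw [norm_smul_sph hr.le, map_smul, smul_eq_mul] at h
        have hr0 : r ≠ 0 := ne_of_gt hr
        rw [show lap u (r • (θ : Space (N + 2))) = -((N : ℝ) * deriv w r *
            fderiv ℝ u (r • (θ : Space (N + 2))) θ) by
          push_cast at h; field_simp at h; linarith,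
          rp, norm_smul_sph hr.le, evalFun_smul_point hY]
        ring
      simp only [this, integral_const_mul]
      rw [hM, show N + 2 - 1 = N + 1 by omega]
      change _ * (_ * ψ1 r) = _
      ring
    have hR : ∀ r ∈ Ioi (0 : ℝ), r ^ (N + 2 - 1) * ∫ θ : Sph (N + 2),
        lap (rp η Y) (r • (θ : Space (N + 2))) * u (r • (θ : Space (N + 2))) ∂(sig (N + 2))
        = r ^ (M + 1) * br r * ψ r := by
      intro r hr
      have : ∀ θ : Sph (N + 2), lap (rp η Y) (r • (θ : Space (N + 2))) * u (r • (θ : Space (N + 2)))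
          = br r * r ^ l * (u (r • (θ : Space (N + 2))) * evalFun Y θ) := by
        intro θ
        rw [lap_rp hη hY hl, norm_smul_sph hr.le, evalFun_smul_point hY]
        ring
      simp only [this, integral_const_mul]
      rw [hM, show N + 2 - 1 = N + 1 by omega]
      change _ * (_ * ψ r) = _
      ring
    rw [setIntegral_congr_fun measurableSet_Ioi hL, setIntegral_congr_fun measurableSet_Ioi hR] at E
    let Φ : ℝ → ℝ := fun r => 2 * (r ^ (M + 2) * deriv η (r ^ 2) * ψ r) - η (r ^ 2) * T r
    let Φ' : ℝ → ℝ := fun r => r ^ (M + 1) * br r * ψ r - η (r ^ 2) * T' r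
    have h1η : ContDiff ℝ 1 (deriv η) := hη.deriv'
    have hd1 : Differentiable ℝ (deriv η) := h1η.differentiable (by norm_num)
    have hd : Differentiable ℝ η := hη.differentiable (by norm_num)
    have hΦ : ∀ r, HasDerivAt Φ (Φ' r) r := fun r => by
      have p2 := hasDerivAt_pow 2 r
      have e1 := (((hasDerivAt_pow (M + 2) r).fun_mul ((hd1 _).hasDerivAt.comp r p2)).fun_mul
        (hψ r)).const_mul (2 : ℝ)
      have e2 := ((hd _).hasDerivAt.comp r p2).fun_mul (hT r)
      refine (e1.sub e2).congr_deriv ?_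
      simp only [Φ', br, T, Function.comp, hM, show N + l + 2 - 1 = N + l + 1 from by omega]
      push_cast
      ring
    have hsupp : ∀ (f : ℝ → ℝ), HasCompactSupport f → HasCompactSupport fun r => f (r ^ 2) := by
      intro f hf
      obtain ⟨C, hC⟩ := hf.isBounded.subset_closedBall 0
      refine HasCompactSupport.intro (isCompact_closedBall 0 (|C| + 1)) fun x hx => ?_
      by_contra h
      have h1 := hC (subset_tsupport _ h)
      rw [Metric.mem_closedBall, Real.dist_0_eq_abs, abs_of_nonneg (sq_nonneg _)] at h1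
      rw [Metric.mem_closedBall, Real.dist_0_eq_abs, not_le] at hx
      nlinarith [le_abs_self C, abs_nonneg C, sq_abs x]
    have sη := hsupp η hηc
    have sη1 := hsupp _ hηc.deriv
    have sη2 := hsupp _ hηc.deriv.deriv
    have cd : Continuous (deriv η) := hd1.continuous
    have cdd : Continuous (deriv (deriv η)) := h1η.continuous_deriv le_rfl
    have cη : Continuous η := hd.continuous
    have sbr : HasCompactSupport br := sη2.mul_left.add sη1.mul_left
    have cbr : Continuous br := by fun_prop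
    have i1 : Integrable fun r => r ^ (M + 1) * br r * ψ r :=
      (by fun_prop : Continuous _).integrable_of_hasCompactSupport sbr.mul_left.mul_right
    have i2 : Integrable fun r => η (r ^ 2) * T' r :=
      (by fun_prop : Continuous _).integrable_of_hasCompactSupport sη.mul_right
    have sΦ : HasCompactSupport Φ :=
      (sη1.mul_left.mul_right.mul_left).sub sη.mul_right
    have E2 := integral_Ioi_of_hasDerivAt_of_tendsto' (a := (0 : ℝ)) (m := 0)
      (fun x _ => hΦ x) (i1.sub i2).integrableOn
      (sΦ.is_zero_at_infty.mono_left atTop_le_cocompact)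
    have hΦ0 : Φ 0 = 0 := by simp [Φ, η, h0.eq_of_nhds]
    rw [hΦ0, sub_zero, integral_sub i1.integrableOn i2.integrableOn, ← E] at E2
    rw [← setIntegral_eq_integral_of_forall_compl_eq_zero (s := Ioi (0 : ℝ))
      (fun x hx => by rw [image_eq_zero_of_notMem_tsupport fun h => hx (hs h), zero_smul])]
    rw [setIntegral_congr_fun measurableSet_Ioi (g := fun r => η (r ^ 2) * T' r
      - -((N : ℝ) * η (r ^ 2) * deriv w r * r ^ (M + 1) * ψ1 r))
      (fun r hr => by simp only [g, smul_eq_mul, hχη r (le_of_lt hr)]; ring), integral_sub i2.integrableOn]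
    · linarith
    · refine (Continuous.integrable_of_hasCompactSupport (by fun_prop) ?_).integrableOn
      exact ((sη.mul_left.mul_right.mul_right.mul_right).neg)
  have hae := isOpen_Ioi.ae_eq_zero_of_integral_contDiff_smul_eq_zero
    (μ := (volume : Measure ℝ)) (f := g) (cg.locallyIntegrable.locallyIntegrableOn _) hweak
  have hg : g r = 0 := Measure.eqOn_open_of_ae_eq
    ((ae_restrict_iff' measurableSet_Ioi).2 hae) isOpen_Ioi cg.continuousOn
    continuousOn_const (mem_Ioi.2 hr)
  have key : r * g r = r ^ M * (r ^ 2 * ψ2 r + ((N + 1 : ℝ) + N * r * deriv w r) * r * ψ1 r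
      - (l : ℝ) * (N + l) * ψ r) := by
    have hm : (M : ℝ) * r ^ (M - 1) * r = M * r ^ M := by
      rcases Nat.eq_zero_or_pos M with h | h
      · simp [h]
      · rw [mul_assoc, ← pow_succ, show M - 1 + 1 = M by omega]
    have hMr : (M : ℝ) = N + l := by rw [hM]; push_cast; ring
    simp only [g, T']
    push_cast
    linear_combination (-(l : ℝ) * ψ r) * hm + (r ^ (M + 1) * ψ1 r - l * r ^ M * ψ r) * hMr
  rw [hg, mul_zero, eq_comm, mul_eq_zero, sub_eq_zero] at key
  exact key.resolve_left (pow_ne_zero _ hr.ne')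

end Vale.Agent.P225
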