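import Vale.Agent.P225.Poly
import Vale.Agent.P225.ODE
import Vale.Agent.P225.Growth
import Mathlib.Topology.ContinuousMap.StoneWeierstrass

open MeasureTheory Set Metric MvPolynomial Filter Topology Module

namespace Vale.Agent.P225

variable {n : ℕ}

lemma integrable_mom {u : Space n → ℝ} (hu : Continuous u) (Y : MvPolynomial (Fin n) ℝ) (r : ℝ) :
    Integrable (fun θ : Sph n => u (r • (θ : Space n)) * evalFun Y θ) (sig n) :=
  integrable_sig ((hu.comp (continuous_subtype_val.const_smul r)).mul
    ((contDiff_evalFun Y (m := 0)).continuous.comp continuous_subtype_val))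

/-- The moment as a linear functional of the polynomial. -/
noncomputable def momY (u : Space n → ℝ) (hu : Continuous u) (r : ℝ) :
    MvPolynomial (Fin n) ℝ →ₗ[ℝ] ℝ where
  toFun Y := mom u Y r
  map_add' p q := by
    simp only [mom, evalFun, map_add, mul_add]
    exact integral_add (integrable_mom hu p r) (integrable_mom hu q r)
  map_smul' c p := by
    simp only [mom, evalFun, smul_eval, mul_left_comm, smul_eq_mul, RingHom.id_apply]
    exact integral_const_mul _ _

/-- Polynomials restricted to the sphere. -/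
noncomputable def sphAlg (n : ℕ) : MvPolynomial (Fin n) ℝ →ₐ[ℝ] C(Sph n, ℝ) :=
  aeval fun i => ⟨fun θ => (θ : Space n) i,
    (EuclideanSpace.proj i : Space n →L[ℝ] ℝ).continuous.comp continuous_subtype_val⟩

lemma sphAlg_apply (p : MvPolynomial (Fin n) ℝ) (θ : Sph n) : sphAlg n p θ = evalFun p θ := by
  induction p using MvPolynomial.induction_on with
  | C a => simp [sphAlg, evalFun]
  | add p q hp hq => simp [evalFun] at *; simp [hp, hq]
  | mul_X p j hp =>
    simp [sphAlg, evalFun] at *
    simp [hp]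
    exact Or.inl rfl

lemma eq_zero_of_moments {u : Space n → ℝ} (hu : Continuous u) {r : ℝ}
    (h : ∀ p, mom u p r = 0) (θ : Sph n) : u (r • (θ : Space n)) = 0 := by
  let g : C(Sph n, ℝ) := ⟨fun θ => u (r • (θ : Space n)),
    hu.comp (continuous_subtype_val.const_smul r)⟩
  have hsep : (sphAlg n).range.SeparatesPoints := by
    intro a b hab
    obtain ⟨i, hi⟩ : ∃ i, (a : Space n) i ≠ (b : Space n) i := by
      by_contra hh
      push Not at hh
      exact hab (Subtype.ext (PiLp.ext hh))
    exact ⟨fun θ => sphAlg n (X i) θ, ⟨_, ⟨X i, rfl⟩, rfl⟩, by simpa [sphAlg_apply, evalFun] using hi⟩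
  have h2 : ∫ t, g t ^ 2 ∂(sig n) = 0 := by
    refine abs_eq_zero.1 (le_antisymm ?_ (abs_nonneg _))
    set I := ∫ t, |g t| ∂(sig n)
    refine le_of_forall_pos_le_add fun ε hε => ?_
    have hI : 0 ≤ I := integral_nonneg fun t => abs_nonneg _
    obtain ⟨⟨q, p, rfl⟩, hp⟩ := ContinuousMap.exists_mem_subalgebra_near_continuous_of_separatesPoints
      (sphAlg n).range hsep (fun t => g t) g.continuous (ε / (I + 1)) (by positivity)
    have e : ∫ t, g t ^ 2 ∂(sig n) = ∫ t, g t * (g t - evalFun p t) ∂(sig n) := by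
      simp only [mul_sub]
      have i1 : Integrable (fun t => g t * g t) (sig n) :=
        integrable_sig (g.continuous.mul g.continuous)
      have i2 : Integrable (fun t => g t * evalFun p t) (sig n) := integrable_mom hu p r
      rw [integral_sub i1 i2, show ∫ t, g t * evalFun p t ∂(sig n) = 0 from h p, sub_zero]
      exact integral_congr_ae (.of_forall fun t => pow_two (g t))
    rw [zero_add, e]
    calc |∫ t, g t * (g t - evalFun p t) ∂(sig n)|
        ≤ ∫ t, |g t * (g t - evalFun p t)| ∂(sig n) := abs_integral_le_integral_abs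
      _ ≤ ∫ t, |g t| * (ε / (I + 1)) ∂(sig n) := by
        refine integral_mono ?_ ?_ fun t => ?_
        · exact integrable_sig ((g.continuous.mul (g.continuous.sub
            ((contDiff_evalFun p (m := 0)).continuous.comp continuous_subtype_val))).abs)
        · exact integrable_sig (g.continuous.abs.mul continuous_const)
        · rw [abs_mul]
          refine mul_le_mul_of_nonneg_left ?_ (abs_nonneg _)
          have := (hp t).le
          rw [Real.norm_eq_abs, abs_sub_comm] at this
          simpa [sphAlg_apply] using this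
      _ = I * (ε / (I + 1)) := integral_mul_const _ _
      _ ≤ ε := by
        rw [mul_div_assoc', div_le_iff₀ (by positivity)]
        nlinarith
  have hae := (integral_eq_zero_iff_of_nonneg (fun t => sq_nonneg (g t))
    (integrable_sig (g.continuous.pow 2))).1 h2
  have h0 := congrFun ((g.continuous.pow 2).ae_eq_iff_eq (sig n) continuous_const |>.1 hae) θ
  exact sq_eq_zero_iff.1 h0

/-- Harmonic polynomials of degree at most `k`. -/
noncomputable def HP (n k : ℕ) : Submodule ℝ (MvPolynomial (Fin n) ℝ) :=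
  restrictTotalDegree (Fin n) ℝ k ⊓ LinearMap.ker (lapL n)

instance (n k : ℕ) : FiniteDimensional ℝ (HP n k) :=
  Submodule.finiteDimensional_of_le (S₂ := restrictTotalDegree (Fin n) ℝ k) inf_le_left

/-- Polynomials as functions, linearly. -/
noncomputable def evalL (n : ℕ) : MvPolynomial (Fin n) ℝ →ₗ[ℝ] (Space n → ℝ) where
  toFun := evalFun
  map_add' p q := by funext x; simp [evalFun]
  map_smul' c p := by funext x; simp [evalFun, smul_eval]

lemma finrank_HP_le (n k : ℕ) : finrank ℝ (HP n k) ≤ finrank ℝ (harmPolys n k) := by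
  have : FiniteDimensional ℝ (harmPolys n k) := by
    refine Submodule.finiteDimensional_of_le (S₂ := (restrictTotalDegree (Fin n) ℝ k).map (evalL n))
      (Submodule.span_le.2 ?_)
    rintro _ ⟨p, hp, rfl, -⟩
    exact ⟨p, (mem_restrictTotalDegree _ _ _).2 hp, rfl⟩
  have hmem : ∀ p : HP n k, evalL n p ∈ harmPolys n k := fun p => by
    refine Submodule.subset_span ⟨p, (mem_restrictTotalDegree _ _ _).1 p.2.1, rfl, fun x => ?_⟩
    change lap (evalFun p.1) x = 0
    rw [lap_evalFun, show lapP p.1 = 0 from p.2.2]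
    simp [evalFun]
  refine LinearMap.finrank_le_finrank_of_injective
    (f := LinearMap.codRestrict (harmPolys n k) ((evalL n).comp (HP n k).subtype) hmem) ?_
  rw [injective_iff_map_eq_zero]
  intro p hp
  exact Subtype.ext (evalFun_injective _ fun x => congrFun (congrArg Subtype.val hp) x)

lemma evalFun_sq_sph (θ : Sph n) : evalFun (sq n) (θ : Space n) = 1 := by
  have h := EuclideanSpace.real_norm_sq_eq (θ : Space n)
  rw [norm_eq_of_mem_sphere, one_pow] at h
  simpa [evalFun, sq, map_sum, ← pow_two] using h.symm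

section

variable {N : ℕ} {w : ℝ → ℝ}

lemma mom_abs_le {u : Space n → ℝ} {d : ℝ} (hu : HasGrowth w d u)
    (Y : MvPolynomial (Fin n) ℝ) :
    ∃ C, ∀ r, 0 ≤ r → |mom u Y r| ≤ C * (1 + geoRad w r) ^ d := by
  obtain ⟨C, hC⟩ := hu
  have cY : Continuous fun θ : Sph n => evalFun Y (θ : Space n) :=
    (contDiff_evalFun Y (m := 0)).continuous.comp continuous_subtype_val
  refine ⟨C * ∫ θ : Sph n, |evalFun Y θ| ∂(sig n), fun r hr => ?_⟩
  rw [mom, mul_right_comm, ← integral_const_mul, ← Real.norm_eq_abs]
  refine norm_integral_le_of_norm_le (integrable_sig (continuous_const.mul cY.abs))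
    (.of_forall fun θ => ?_)
  rw [Real.norm_eq_abs, abs_mul]
  refine mul_le_mul_of_nonneg_right ?_ (abs_nonneg _)
  simpa [norm_smul_sph hr] using hC (r • (θ : Space n))

/-- The dimension bound for finite-dimensional spaces. -/
lemma finrank_le_of_finite (hw : ContDiff ℝ 2 w)
    (hp : ∀ r : ℝ, 0 ≤ r → deriv (fun s => 1 + s * deriv w s) r ≤ 0)
    (hR : Tendsto (geoRad w) atTop atTop) {d : ℝ} (hd : 0 ≤ d)
    (W : Submodule ℝ (Space (N + 2) → ℝ)) [FiniteDimensional ℝ W]
    (hW : ∀ u ∈ W, IsRotHarmonic w u ∧ HasGrowth w d u) :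
    finrank ℝ W ≤ finrank ℝ (harmPolys (N + 2) ⌊d⌋₊) := by
  refine le_trans ?_ (finrank_HP_le _ _)
  set k := ⌊d⌋₊
  have hc : ∀ u : W, Continuous u.1 := fun u => (hW u.1 u.2).1.1.continuous
  let T : ℝ → W →ₗ[ℝ] Dual ℝ (HP (N + 2) k) := fun r =>
    { toFun := fun u => (momY u.1 (hc u) r).comp (HP (N + 2) k).subtype
      map_add' := fun u v => LinearMap.ext fun p => by
        simp only [LinearMap.comp_apply, LinearMap.add_apply]
        change mom _ _ r = mom _ _ r + mom _ _ r
        simp only [mom, Submodule.coe_add, Pi.add_apply, add_mul]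
        exact integral_add (integrable_mom (hc u) _ r) (integrable_mom (hc v) _ r)
      map_smul' := fun c u => LinearMap.ext fun p => by
        simp only [LinearMap.comp_apply, LinearMap.smul_apply, RingHom.id_apply, smul_eq_mul]
        change mom _ _ r = c * mom _ _ r
        simp only [mom, Submodule.coe_smul, Pi.smul_apply, smul_eq_mul, mul_assoc]
        exact integral_const_mul _ _ }
  have hTker : ∀ r u, T r u = 0 → ∀ q ∈ HP (N + 2) k, mom u.1 q r = 0 := fun r u h q hq =>
    LinearMap.congr_fun h ⟨q, hq⟩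
  have anti : ∀ r s, 0 ≤ r → r ≤ s → LinearMap.ker (T s) ≤ LinearMap.ker (T r) := by
    intro r s hr hrs u hu
    refine LinearMap.mem_ker.2 (LinearMap.ext fun q => ?_)
    change momY u.1 (hc u) r q.1 = 0
    rw [← sum_homogeneousComponent q.1, map_sum]
    refine Finset.sum_eq_zero fun j hj => ?_
    set Y := homogeneousComponent j q.1
    have hYl : lapP Y = 0 := lapP_homogeneousComponent j _ q.2.2
    have hYh : Y.IsHomogeneous j := homogeneousComponent_isHomogeneous j q.1
    have hjk : j ≤ k := (Nat.lt_succ_iff.1 (Finset.mem_range.1 hj)).trans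
      ((mem_restrictTotalDegree _ _ _).1 q.2.1)
    have h0 := hTker s u hu Y ⟨(mem_restrictTotalDegree _ _ _).2 (hYh.totalDegree_le.trans hjk), hYl⟩
    have hh := (hW u.1 u.2).1
    have hm : mom u.1 Y r ^ 2 ≤ mom u.1 Y s ^ 2 := sq_monotone hw N j
      (hasDerivAt_mom hh.1 Y) (hasDerivAt_mom1 hh.1 Y)
      (fun t ht => mom_ode hw N j hh hYh hYl ht) hr (hr.trans hrs) hrs
    rw [h0] at hm
    change mom u.1 Y r = 0
    exact sq_eq_zero_iff.1 (le_antisymm (by simpa using hm) (sq_nonneg _))
  obtain ⟨m, hmin⟩ : ∃ m : ℕ, ∀ j : ℕ,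
      finrank ℝ (LinearMap.ker (T (m + 1))) ≤ finrank ℝ (LinearMap.ker (T (j + 1))) := by
    obtain ⟨m, hm⟩ := Nat.sInf_mem (Set.range_nonempty
      fun j : ℕ => finrank ℝ (LinearMap.ker (T (j + 1))))
    exact ⟨m, fun j => hm.le.trans (Nat.sInf_le ⟨j, rfl⟩)⟩
  have inj : Function.Injective (T (m + 1)) := by
    rw [injective_iff_map_eq_zero]
    intro u hu
    have hh := (hW u.1 u.2).1
    have hall : ∀ r : ℝ, 0 < r → ∀ q ∈ HP (N + 2) k, mom u.1 q r = 0 := by
      intro r hr
      obtain ⟨j, hj⟩ := exists_nat_ge r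
      have h1 : LinearMap.ker (T ((max j m : ℕ) + 1)) ≤ LinearMap.ker (T (m + 1)) :=
        anti _ _ (by positivity) (by gcongr; exact le_max_right _ _)
      have h2 := Submodule.eq_of_le_of_finrank_le h1 (hmin (max j m))
      refine hTker r u (anti r _ hr.le ?_ (h2 ▸ (LinearMap.mem_ker.2 hu) :
        u ∈ LinearMap.ker (T ((max j m : ℕ) + 1))))
      calc r ≤ (j : ℝ) := hj
        _ ≤ ((max j m : ℕ) : ℝ) := by exact_mod_cast le_max_left j m
        _ ≤ _ := le_add_of_nonneg_right zero_le_one
    have hzero : ∀ r : ℝ, 0 < r → ∀ θ : Sph (N + 2), u.1 (r • (θ : Space (N + 2))) = 0 := by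
      intro r hr
      refine eq_zero_of_moments (hc u) (functional_zero (by omega) (momY u.1 (hc u) r)
        (fun q => ?_) (fun j Y hY hl => ?_))
      · change mom u.1 (sq _ * q) r = mom u.1 q r
        have : ∀ θ : Sph (N + 2), evalFun (sq (N + 2) * q) θ = evalFun q θ := fun θ => by
          have h := evalFun_sq_sph θ
          unfold evalFun at h ⊢
          rw [map_mul, h, one_mul]
        simp only [mom, this]
      · change mom u.1 Y r = 0
        by_cases hjk : j ≤ k
        · exact hall r hr Y ⟨(mem_restrictTotalDegree _ _ _).2 (hY.totalDegree_le.trans hjk), hl⟩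
        · obtain ⟨C, hC⟩ := mom_abs_le (hW u.1 u.2).2 Y
          exact radial_vanish hw hp hR N j hd (Nat.lt_of_floor_lt (not_le.1 hjk))
            (hasDerivAt_mom hh.1 Y) (hasDerivAt_mom1 hh.1 Y)
            (fun t ht => mom_ode hw N j hh hY hl ht) hC r hr
    refine Subtype.ext ?_
    have hdense : Dense ({0}ᶜ : Set (Space (N + 2))) := dense_compl_singleton _
    refine Continuous.ext_on hdense (hc u) continuous_const fun x hx => ?_
    have hx0 : 0 < ‖x‖ := norm_pos_iff.2 hx
    have := hzero ‖x‖ hx0 ⟨‖x‖⁻¹ • x, by simp [norm_smul, hx0.ne']⟩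
    rw [smul_smul, mul_inv_cancel₀ hx0.ne', one_smul] at this
    exact this
  exact (LinearMap.finrank_le_finrank_of_injective inj).trans Subspace.dual_finrank_eq.le

lemma finite_and_finrank_le (hw : ContDiff ℝ 2 w)
    (hp : ∀ r : ℝ, 0 ≤ r → deriv (fun s => 1 + s * deriv w s) r ≤ 0)
    (hR : Tendsto (geoRad w) atTop atTop) {d : ℝ} (hd : 0 ≤ d)
    (V : Submodule ℝ (Space (N + 2) → ℝ))
    (hV : ∀ u ∈ V, IsRotHarmonic w u ∧ HasGrowth w d u) :
    FiniteDimensional ℝ V ∧ finrank ℝ V ≤ finrank ℝ (harmPolys (N + 2) ⌊d⌋₊) := by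
  have hrank : Module.rank ℝ V ≤ (finrank ℝ (harmPolys (N + 2) ⌊d⌋₊) : Cardinal) := by
    refine rank_le fun s hs => ?_
    have hs' : LinearIndependent ℝ fun i : s => ((i : V) : Space (N + 2) → ℝ) :=
      hs.map' V.subtype (Submodule.ker_subtype V)
    let W := Submodule.span ℝ (Set.range fun i : s => ((i : V) : Space (N + 2) → ℝ))
    have : FiniteDimensional ℝ W := FiniteDimensional.span_of_finite ℝ (Set.finite_range _)
    have hle : W ≤ V := Submodule.span_le.2 (by rintro _ ⟨i, rfl⟩; exact i.1.2)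
    have := finrank_le_of_finite hw hp hR hd W fun u hu => hV u (hle hu)
    rw [finrank_span_eq_card hs', Fintype.card_coe] at this
    exact this
  have : FiniteDimensional ℝ V :=
    Module.rank_lt_aleph0_iff.1 (hrank.trans_lt (Cardinal.natCast_lt_aleph0))
  exact ⟨this, finrank_le_of_rank_le hrank⟩

end

end Vale.Agent.P225
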