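import Mathlib.RingTheory.MvPolynomial.EulerIdentity
import Mathlib.RingTheory.MvPolynomial.Homogeneous
import Mathlib.RingTheory.MvPolynomial.Basic
import Mathlib.LinearAlgebra.FiniteDimensional.Basic
import Mathlib.Data.Real.Basic
import Mathlib.Tactic

open MvPolynomial

namespace Vale.Agent.P225

variable {n : ℕ}

/-- Algebraic Laplacian. -/
noncomputable def lapP (p : MvPolynomial (Fin n) ℝ) : MvPolynomial (Fin n) ℝ :=
  ∑ i, pderiv i (pderiv i p)

/-- The squared radius polynomial. -/
noncomputable def sq (n : ℕ) : MvPolynomial (Fin n) ℝ := ∑ i, X i * X i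

lemma lapP_add (p q : MvPolynomial (Fin n) ℝ) : lapP (p + q) = lapP p + lapP q := by
  simp [lapP, Finset.sum_add_distrib]

lemma lapP_smul (c : ℝ) (p : MvPolynomial (Fin n) ℝ) : lapP (c • p) = c • lapP p := by
  simp [lapP, Finset.smul_sum]

/-- The Laplacian as a linear map. -/
noncomputable def lapL (n : ℕ) : MvPolynomial (Fin n) ℝ →ₗ[ℝ] MvPolynomial (Fin n) ℝ where
  toFun := lapP
  map_add' := lapP_add
  map_smul' := lapP_smul

lemma lapP_hom {j : ℕ} {p : MvPolynomial (Fin n) ℝ} (h : p.IsHomogeneous j) :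
    (lapP p).IsHomogeneous (j - 2) := by
  refine IsHomogeneous.sum _ _ _ fun i _ => ?_
  have := (h.pderiv (i := i)).pderiv (i := i)
  rwa [Nat.sub_sub] at this

lemma sq_hom : (sq n).IsHomogeneous 2 :=
  IsHomogeneous.sum _ _ _ fun i _ => (isHomogeneous_X ℝ i).mul (isHomogeneous_X ℝ i)

lemma pderiv_sq (i : Fin n) : pderiv i (sq n) = 2 * X i := by
  rw [sq, map_sum, Finset.sum_eq_single i]
  · simp; ring
  · intro b _ hb
    simp [pderiv_X_of_ne hb]
  · simp

lemma lapP_sq_mul {j : ℕ} {q : MvPolynomial (Fin n) ℝ} (h : q.IsHomogeneous j) :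
    lapP (sq n * q) = sq n * lapP q + ((2 * n + 4 * j : ℕ) : ℝ) • q := by
  have he := h.sum_X_mul_pderiv
  rw [nsmul_eq_mul] at he
  have h1 : ∀ i : Fin n, pderiv i (pderiv i (sq n * q)) =
      sq n * pderiv i (pderiv i q) + 4 * (X i * pderiv i q) + 2 * q := by
    intro i
    rw [pderiv_mul, pderiv_sq, map_add, pderiv_mul, pderiv_mul, pderiv_mul, pderiv_sq, pderiv_X_self,
      show pderiv i (2 : MvPolynomial (Fin n) ℝ) = 0 from pderiv_C (a := (2 : ℝ))]
    ring
  simp only [lapP, h1, Finset.sum_add_distrib, ← Finset.mul_sum, Finset.sum_const, Finset.card_univ,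
    Fintype.card_fin, nsmul_eq_mul, he]
  rw [smul_eq_C_mul, map_natCast]
  push_cast
  ring

lemma sq_ne_zero (hn : 0 < n) : sq n ≠ 0 := by
  intro h
  have := congrArg (eval fun _ : Fin n => (1 : ℝ)) h
  simp [sq] at this
  omega

lemma lapP_eq_zero_of_lt {j : ℕ} {q : MvPolynomial (Fin n) ℝ} (h : q.IsHomogeneous j) (hj : j < 2) :
    lapP q = 0 := by
  refine Finset.sum_eq_zero fun i _ => ?_
  have h1 : (pderiv i q).IsHomogeneous 0 := by
    have := h.pderiv (i := i)
    rwa [show j - 1 = 0 by omega] at this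
  rw [← (totalDegree_zero_iff_isHomogeneous _).2 h1 |> totalDegree_eq_zero_iff_eq_C.1 |>.symm,
    pderiv_C]

lemma eq_zero_of_sq_lap (hn : 0 < n) : ∀ (j : ℕ) (q : MvPolynomial (Fin n) ℝ) (c : ℝ),
    q.IsHomogeneous j → 0 < c → sq n * lapP q + c • q = 0 → q = 0 := by
  intro j
  induction j using Nat.strong_induction_on with
  | _ j ih =>
    intro q c hq hc he
    by_cases hj : j < 2
    · rw [lapP_eq_zero_of_lt hq hj, mul_zero, zero_add] at he
      exact (smul_eq_zero.1 he).resolve_left hc.ne'
    set q1 := (-c⁻¹) • lapP q with hq1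
    have hq1h : q1.IsHomogeneous (j - 2) := by
      rw [hq1, smul_eq_C_mul]
      exact (lapP_hom hq).C_mul _
    have hqe : q = sq n * q1 := by
      have : c • q = -(sq n * lapP q) := by linear_combination he
      rw [hq1, mul_smul_comm, neg_smul, ← smul_neg, ← this, smul_smul, inv_mul_cancel₀ hc.ne',
        one_smul]
    set e : ℝ := ((2 * n + 4 * (j - 2) : ℕ) : ℝ)
    have he' : sq n * (sq n * lapP q1 + (e + c) • q1) = 0 := by
      have hl := lapP_sq_mul hq1h
      rw [← hqe] at hl
      clear_value q1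
      rw [hl, hqe] at he
      simp only [smul_eq_C_mul, map_add] at he ⊢
      linear_combination he
    have := ih (j - 2) (by omega) q1 (e + c) hq1h (by positivity)
      ((mul_eq_zero.1 he').resolve_left (sq_ne_zero hn))
    rw [hqe, this, mul_zero]

lemma exists_decomp (hn : 0 < n) (j : ℕ) (p : MvPolynomial (Fin n) ℝ) (hp : p.IsHomogeneous (j + 2)) :
    ∃ q h : MvPolynomial (Fin n) ℝ, q.IsHomogeneous j ∧ h.IsHomogeneous (j + 2) ∧ lapP h = 0 ∧
      p = h + sq n * q := by
  let P := homogeneousSubmodule (Fin n) ℝ j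
  have : FiniteDimensional ℝ P := by
    apply Submodule.finiteDimensional_of_le (S₂ := restrictTotalDegree (Fin n) ℝ j)
    intro q hq
    rw [mem_restrictTotalDegree]
    exact IsHomogeneous.totalDegree_le hq
  let T : P →ₗ[ℝ] P := LinearMap.codRestrict P
    ((lapL n).comp ((LinearMap.mulLeft ℝ (sq n)).comp P.subtype)) fun q => by
      have h := lapP_hom ((sq_hom (n := n)).mul q.2)
      rw [show 2 + j - 2 = j by omega] at h
      exact h
  have hT : Function.Injective T := by
    rw [injective_iff_map_eq_zero]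
    intro q hq
    have h0 : lapP (sq n * q.1) = 0 := congrArg Subtype.val hq
    rw [lapP_sq_mul q.2] at h0
    apply Subtype.ext
    refine eq_zero_of_sq_lap hn j q.1 _ q.2 ?_ h0
    have : 0 < 2 * n + 4 * j := by omega
    exact_mod_cast this
  have hlp : (lapP p).IsHomogeneous j := lapP_hom hp
  obtain ⟨q, hq⟩ := (LinearMap.injective_iff_surjective.1 hT) ⟨lapP p, hlp⟩
  have hq' : lapP (sq n * q.1) = lapP p := congrArg Subtype.val hq
  refine ⟨q.1, p - sq n * q.1, q.2, hp.sub ?_, ?_, by ring⟩
  · rw [add_comm j 2]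
    exact sq_hom.mul q.2
  · have := lapP_add (p - sq n * q.1) (sq n * q.1)
    rw [sub_add_cancel, hq'] at this
    linear_combination -this

/-- A linear functional on polynomials that kills homogeneous harmonic polynomials and is blind
to multiplication by the squared radius vanishes identically. -/
lemma functional_zero (hn : 0 < n) (Λ : MvPolynomial (Fin n) ℝ →ₗ[ℝ] ℝ)
    (hsq : ∀ q, Λ (sq n * q) = Λ q)
    (hh : ∀ j h, IsHomogeneous h j → lapP h = 0 → Λ h = 0) : ∀ p, Λ p = 0 := by
  have hom : ∀ j p, IsHomogeneous p j → Λ p = 0 := by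
    intro j
    induction j using Nat.strong_induction_on with
    | _ j ih =>
      intro p hp
      by_cases hj : j < 2
      · exact hh j p hp (lapP_eq_zero_of_lt hp hj)
      obtain ⟨i, rfl⟩ : ∃ i, j = i + 2 := ⟨j - 2, by omega⟩
      obtain ⟨q, h, hq, hhh, hl, rfl⟩ := exists_decomp hn i p hp
      rw [map_add, hsq, hh _ h hhh hl, ih i (by omega) q hq, add_zero]
  intro p
  rw [← sum_homogeneousComponent p, map_sum]
  exact Finset.sum_eq_zero fun i _ => hom i _ (homogeneousComponent_isHomogeneous i p)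

lemma lapP_homogeneousComponent (j : ℕ) (p : MvPolynomial (Fin n) ℝ) (hp : lapP p = 0) :
    lapP (homogeneousComponent j p) = 0 := by
  by_cases hj : j < 2
  · exact lapP_eq_zero_of_lt (homogeneousComponent_isHomogeneous j p) hj
  have h1 : ∀ i, (lapP (homogeneousComponent i p)).IsHomogeneous (i - 2) := fun i =>
    lapP_hom (homogeneousComponent_isHomogeneous i p)
  have h2 : ∀ i, i < 2 → lapP (homogeneousComponent i p) = 0 := fun i hi =>
    lapP_eq_zero_of_lt (homogeneousComponent_isHomogeneous i p) hi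
  have hs : lapP p = ∑ i ∈ Finset.range (p.totalDegree + 1), lapP (homogeneousComponent i p) := by
    have := map_sum (lapL n) (fun i => homogeneousComponent i p) (Finset.range (p.totalDegree + 1))
    rw [sum_homogeneousComponent] at this
    exact this
  have h3 := congrArg (homogeneousComponent (j - 2)) hs
  rw [hp, map_zero, map_sum, Finset.sum_eq_single j] at h3
  · rw [homogeneousComponent_of_mem (h1 j)] at h3
    simpa using h3.symm
  · intro i _ hij
    by_cases hi : i < 2
    · rw [h2 i hi, map_zero]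
    · rw [homogeneousComponent_of_mem (h1 i), if_neg]
      omega
  · intro hmem
    rw [homogeneousComponent_eq_zero j p (by simp at hmem; omega)]
    simp [lapP]

end Vale.Agent.P225
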