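import Vale.Agent.P225.Defs
import Vale.Agent.P225.Poly
import Mathlib.Analysis.Calculus.LineDeriv.IntegrationByParts
import Mathlib.Analysis.InnerProductSpace.Calculus
import Mathlib.Algebra.MvPolynomial.Funext
import Mathlib.MeasureTheory.Constructions.HaarToSphere
import Mathlib.MeasureTheory.Measure.Haar.InnerProductSpace

open MeasureTheory Set Metric MvPolynomial

namespace Vale.Agent.P225

variable {n : ℕ}

/-- The unit sphere. -/
abbrev Sph (n : ℕ) : Type := sphere (0 : Space n) 1

/-- Surface measure on the unit sphere. -/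
noncomputable def sig (n : ℕ) : Measure (Sph n) := (volume : Measure (Space n)).toSphere

instance : IsFiniteMeasure (sig n) := by unfold sig; infer_instance

instance : (sig n).IsOpenPosMeasure := by unfold sig; infer_instance

lemma integrable_sig {f : Sph n → ℝ} (hf : Continuous f) : Integrable f (sig n) :=
  hf.integrable_of_hasCompactSupport (HasCompactSupport.of_compactSpace f)

lemma integral_polar {F : Space n → ℝ} (hn : 0 < n) (hF : Integrable F) :
    ∫ x, F x = ∫ r in Ioi (0 : ℝ), r ^ (n - 1) * ∫ θ : Sph n, F (r • (θ : Space n)) ∂(sig n) := by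
  haveI : Nonempty (Fin n) := ⟨⟨0, hn⟩⟩
  set μ : Measure (Space n) := volume
  have hmp := μ.measurePreserving_homeomorphUnitSphereProd
  have he := Homeomorph.measurableEmbedding (homeomorphUnitSphereProd (Space n))
  let G : Sph n × Ioi (0 : ℝ) → ℝ := fun z => F ((z.2 : ℝ) • (z.1 : Space n))
  have hG : ∀ x, G (homeomorphUnitSphereProd (Space n) x) = F x := by
    intro x
    have hx : (x : Space n) ≠ 0 := x.2
    simp [G, smul_smul, hx]
  have hint : Integrable G (μ.toSphere.prod (Measure.volumeIoiPow (Module.finrank ℝ (Space n) - 1))) := by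
    rw [← hmp.integrable_comp_emb he]
    have : IntegrableOn F ({0}ᶜ : Set (Space n)) μ := hF.integrableOn
    rw [integrableOn_iff_comap_subtypeVal (measurableSet_singleton _).compl] at this
    exact this.congr (.of_forall fun x => (hG x).symm)
  calc ∫ x, F x = ∫ x : ({0}ᶜ : Set (Space n)), F x ∂(μ.comap (↑)) := by
        rw [integral_subtype_comap (measurableSet_singleton _).compl F, restrict_compl_singleton]
    _ = ∫ z, G z ∂(μ.toSphere.prod (Measure.volumeIoiPow (Module.finrank ℝ (Space n) - 1))) := by
        rw [← hmp.integral_comp he G]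
        exact integral_congr_ae (.of_forall fun x => (hG x).symm)
    _ = _ := by
        rw [integral_prod_symm _ hint, finrank_euclideanSpace_fin]
        simp only [Measure.volumeIoiPow, ENNReal.ofReal]
        rw [integral_withDensity_eq_integral_smul (measurable_subtype_coe.pow_const _).real_toNNReal,
          integral_subtype_comap measurableSet_Ioi (fun a : ℝ => Real.toNNReal (a ^ (n - 1)) •
            ∫ θ : Sph n, F (a • (θ : Space n)) ∂μ.toSphere)]
        refine setIntegral_congr_fun measurableSet_Ioi fun a ha => ?_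
        rw [NNReal.smul_def, Real.coe_toNNReal _ (pow_nonneg (le_of_lt ha) _)]
        rfl

lemma hasFDerivAt_evalFun (p : MvPolynomial (Fin n) ℝ) (x : Space n) :
    HasFDerivAt (evalFun p)
      (∑ i, evalFun (pderiv i p) x • (EuclideanSpace.proj i : Space n →L[ℝ] ℝ)) x := by
  induction p using MvPolynomial.induction_on with
  | C a =>
    unfold evalFun
    simp only [eval_C, pderiv_C, map_zero, zero_smul, Finset.sum_const_zero]
    exact hasFDerivAt_const (𝕜 := ℝ) a x
  | add p q hp hq =>
    have h := hp.fun_add hq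
    unfold evalFun at h ⊢
    simp only [map_add, add_smul, Finset.sum_add_distrib] at h ⊢
    exact h
  | mul_X p j hp =>
    have h := hp.fun_mul ((EuclideanSpace.proj j : Space n →L[ℝ] ℝ).hasFDerivAt (x := x))
    unfold evalFun at h ⊢
    simp only [map_mul, eval_X]
    refine h.congr_fderiv (ContinuousLinearMap.ext fun v => ?_)
    simp [pderiv_X, add_mul, Finset.sum_add_distrib, Finset.mul_sum, Pi.single_apply,
      apply_ite, ite_mul]
    ring_nf

lemma pd_evalFun (i : Fin n) (p : MvPolynomial (Fin n) ℝ) :
    pd i (evalFun p) = evalFun (pderiv i p) := by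
  funext x
  simp [pd, (hasFDerivAt_evalFun p x).fderiv, PiLp.single_apply]

lemma contDiff_evalFun (p : MvPolynomial (Fin n) ℝ) {m : WithTop ℕ∞} :
    ContDiff ℝ m (evalFun p) := by
  induction p using MvPolynomial.induction_on with
  | C a =>
    unfold evalFun
    simpa using (contDiff_const (𝕜 := ℝ) (c := a))
  | add p q hp hq =>
    unfold evalFun at hp hq ⊢
    simpa using hp.add hq
  | mul_X p j hp =>
    unfold evalFun at hp ⊢
    simpa using hp.mul ((EuclideanSpace.proj j : Space n →L[ℝ] ℝ).contDiff (n := m))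

lemma lap_evalFun (p : MvPolynomial (Fin n) ℝ) : lap (evalFun p) = evalFun (lapP p) := by
  funext x
  simp [lap, pd_evalFun, evalFun, lapP, map_sum]

lemma evalFun_injective (p : MvPolynomial (Fin n) ℝ) (h : ∀ x, evalFun p x = 0) : p = 0 := by
  refine MvPolynomial.funext fun v => ?_
  simpa [evalFun] using h (WithLp.toLp 2 v)

lemma evalFun_smul_point {j : ℕ} {p : MvPolynomial (Fin n) ℝ} (h : p.IsHomogeneous j) (r : ℝ)
    (x : Space n) : evalFun p (r • x) = r ^ j * evalFun p x := by
  simp only [evalFun, eval_eq, Finset.mul_sum]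
  refine Finset.sum_congr rfl fun d hd => ?_
  have hdeg : ∑ i ∈ d.support, d i = j := by
    have := h (mem_support_iff.1 hd)
    simpa [Finsupp.weight_apply, Finsupp.sum] using this
  rw [← hdeg, ← Finset.prod_pow_eq_pow_sum]
  simp only [PiLp.smul_apply, smul_eq_mul, mul_pow, Finset.prod_mul_distrib]
  ring

/-- Radial test function times a polynomial. -/
noncomputable def rp (η : ℝ → ℝ) (p : MvPolynomial (Fin n) ℝ) (x : Space n) : ℝ :=
  η (‖x‖ ^ 2) * evalFun p x

lemma contDiff_rp {η : ℝ → ℝ} {m : WithTop ℕ∞} (hη : ContDiff ℝ m η)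
    (p : MvPolynomial (Fin n) ℝ) : ContDiff ℝ m (rp η p) :=
  (hη.comp (contDiff_norm_sq ℝ)).mul (contDiff_evalFun p)

lemma pd_rp {η : ℝ → ℝ} (hη : Differentiable ℝ η) (i : Fin n) (p : MvPolynomial (Fin n) ℝ) :
    pd i (rp η p) = fun x => rp (deriv η) (2 * X i * p) x + rp η (pderiv i p) x := by
  funext x
  have h1 := ((hη (‖x‖ ^ 2)).hasDerivAt.comp_hasFDerivAt x
    (hasStrictFDerivAt_norm_sq x).hasFDerivAt).fun_mul (hasFDerivAt_evalFun p x)
  rw [pd, show fderiv ℝ (rp η p) x = _ from h1.fderiv]
  simp [rp, evalFun, PiLp.single_apply, EuclideanSpace.inner_single_right, map_ofNat]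
  ring

lemma pd_add {f g : Space n → ℝ} (hf : Differentiable ℝ f) (hg : Differentiable ℝ g) (i : Fin n)
    (x : Space n) : pd i (fun y => f y + g y) x = pd i f x + pd i g x := by
  simp [pd, fderiv_fun_add (hf x) (hg x)]

lemma lap_rp {η : ℝ → ℝ} (hη : ContDiff ℝ 2 η) {j : ℕ} {p : MvPolynomial (Fin n) ℝ}
    (hp : p.IsHomogeneous j) (hl : lapP p = 0) (x : Space n) :
    lap (rp η p) x = (4 * ‖x‖ ^ 2 * deriv (deriv η) (‖x‖ ^ 2)
      + (2 * n + 4 * j) * deriv η (‖x‖ ^ 2)) * evalFun p x := by
  have h1 : ContDiff ℝ 1 (deriv η) := hη.deriv'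
  have hd : Differentiable ℝ η := hη.differentiable (by norm_num)
  have hd1 : Differentiable ℝ (deriv η) := h1.differentiable (by norm_num)
  have hs : ∀ i : Fin n, pd i (pd i (rp η p)) x =
      deriv (deriv η) (‖x‖ ^ 2) * (4 * (x i * x i) * evalFun p x)
      + deriv η (‖x‖ ^ 2) * (2 * evalFun p x + 4 * (x i * evalFun (pderiv i p) x))
      + η (‖x‖ ^ 2) * evalFun (pderiv i (pderiv i p)) x := by
    intro i
    rw [pd_rp hd, pd_add ((contDiff_rp h1 _).differentiable (by norm_num))
      ((contDiff_rp hη _).differentiable (by norm_num)), pd_rp hd1, pd_rp hd]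
    simp [rp, evalFun, map_ofNat, pderiv_mul, show pderiv i (2 : MvPolynomial (Fin n) ℝ) = 0 from
      pderiv_C (a := (2 : ℝ))]
    ring
  have hE : ∑ i, x i * evalFun (pderiv i p) x = j * evalFun p x := by
    have := congrArg (fun q => evalFun q x) hp.sum_X_mul_pderiv
    simpa [evalFun, nsmul_eq_mul, map_sum] using this
  have hn : ∑ i, x i * x i = ‖x‖ ^ 2 := by
    simp [EuclideanSpace.real_norm_sq_eq, ← pow_two]
  have hz : ∑ i, evalFun (pderiv i (pderiv i p)) x = 0 := by
    have := congrArg (fun q => evalFun q x) hl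
    simpa [evalFun, lapP, map_sum] using this
  simp only [lap, hs, Finset.sum_add_distrib, ← Finset.mul_sum, ← Finset.sum_mul, hn, hE, hz,
    Finset.sum_const, Finset.card_univ, Fintype.card_fin, nsmul_eq_mul, mul_zero, add_zero]
  ring

lemma continuous_pd {f : Space n → ℝ} (hf : ContDiff ℝ 1 f) (i : Fin n) : Continuous (pd i f) :=
  (hf.continuous_fderiv (by norm_num)).clm_apply continuous_const

lemma contDiff_pd {f : Space n → ℝ} (hf : ContDiff ℝ 2 f) (i : Fin n) : ContDiff ℝ 1 (pd i f) :=
  (hf.fderiv_right (by norm_num)).clm_apply contDiff_const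

lemma continuous_lap {f : Space n → ℝ} (hf : ContDiff ℝ 2 f) : Continuous (lap f) :=
  continuous_finsetSum _ fun i _ => continuous_pd (contDiff_pd hf i) i

lemma hasCompactSupport_pd {f : Space n → ℝ} (hf : HasCompactSupport f) (i : Fin n) :
    HasCompactSupport (pd i f) :=
  (hf.fderiv ℝ).comp_left (g := fun L : Space n →L[ℝ] ℝ => L (EuclideanSpace.single i 1)) rfl

lemma green {f u : Space n → ℝ} (hf : ContDiff ℝ 2 f) (hc : HasCompactSupport f)
    (hu : ContDiff ℝ 2 u) : ∫ x, f x * lap u x = ∫ x, lap f x * u x := by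
  have hi : ∀ i, ∫ x, f x * pd i (pd i u) x = ∫ x, pd i (pd i f) x * u x := by
    intro i
    have c0 := hf.continuous
    have c1 := continuous_pd (hf.of_le (by norm_num)) i
    have c2 := continuous_pd (contDiff_pd hf i) i
    have d0 := hu.continuous
    have d1 := continuous_pd (hu.of_le (by norm_num)) i
    have d2 := continuous_pd (contDiff_pd hu i) i
    have s1 := hasCompactSupport_pd hc i
    have s2 := hasCompactSupport_pd s1 i
    have e1 := integral_mul_fderiv_eq_neg_fderiv_mul_of_integrable (μ := volume) (f := f)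
      (g := pd i u) (v := EuclideanSpace.single i (1 : ℝ))
      ((c1.mul d1).integrable_of_hasCompactSupport s1.mul_right)
      ((c0.mul d2).integrable_of_hasCompactSupport hc.mul_right)
      ((c0.mul d1).integrable_of_hasCompactSupport hc.mul_right)
      (fun x _ => hf.differentiable (by norm_num) x)
      (fun x _ => (contDiff_pd hu i).differentiable (by norm_num) x)
    have e2 := integral_mul_fderiv_eq_neg_fderiv_mul_of_integrable (μ := volume) (f := pd i f)
      (g := u) (v := EuclideanSpace.single i (1 : ℝ))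
      ((c2.mul d0).integrable_of_hasCompactSupport s2.mul_right)
      ((c1.mul d1).integrable_of_hasCompactSupport s1.mul_right)
      ((c1.mul d0).integrable_of_hasCompactSupport s1.mul_right)
      (fun x _ => (contDiff_pd hf i).differentiable (by norm_num) x)
      (fun x _ => hu.differentiable (by norm_num) x)
    simp only [pd] at e1 e2 ⊢
    linarith
  simp only [lap, Finset.mul_sum, Finset.sum_mul]
  rw [integral_finset_sum _ fun i _ => ?_, integral_finset_sum _ fun i _ => ?_]
  · exact Finset.sum_congr rfl fun i _ => hi i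
  · exact ((continuous_pd (contDiff_pd hf i) i).mul hu.continuous).integrable_of_hasCompactSupport
      (hasCompactSupport_pd (hasCompactSupport_pd hc i) i).mul_right
  · exact (hf.continuous.mul (continuous_pd (contDiff_pd hu i) i)).integrable_of_hasCompactSupport
      hc.mul_right

lemma hasCompactSupport_rp {η : ℝ → ℝ} (hc : HasCompactSupport η) (p : MvPolynomial (Fin n) ℝ) :
    HasCompactSupport (rp η p) := by
  obtain ⟨M, hM⟩ := hc.isBounded.subset_closedBall 0
  refine HasCompactSupport.intro (isCompact_closedBall (0 : Space n) (max M 1)) fun x hx => ?_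
  have h : η (‖x‖ ^ 2) = 0 := by
    by_contra hne
    have h1 := hM (subset_tsupport _ hne)
    rw [Metric.mem_closedBall, Real.dist_0_eq_abs, abs_of_nonneg (sq_nonneg _)] at h1
    rw [Metric.mem_closedBall, dist_zero_right] at hx
    apply hx
    by_contra h2
    have h3 : max M 1 < ‖x‖ := not_le.1 h2
    nlinarith [le_max_left M 1, le_max_right M 1]
  simp [rp, h]

end Vale.Agent.P225
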