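import Mathlib.Analysis.InnerProductSpace.PiL2
import Mathlib.Analysis.Calculus.ContDiff.Basic
import Mathlib.Analysis.SpecialFunctions.Pow.Real
import Mathlib.MeasureTheory.Integral.IntervalIntegral.Basic
import Mathlib.RingTheory.MvPolynomial.Homogeneous

namespace Vale.Agent.P225

variable {n : ℕ}

/-- Euclidean space, the underlying manifold. -/
abbrev Space (n : ℕ) : Type := EuclideanSpace ℝ (Fin n)

/-- Partial derivative. -/
noncomputable def pd (i : Fin n) (f : Space n → ℝ) (x : Space n) : ℝ :=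
  fderiv ℝ f x (EuclideanSpace.single i (1 : ℝ))

/-- The Euclidean Laplacian, the sum of the second partial derivatives. -/
noncomputable def lap (f : Space n → ℝ) (x : Space n) : ℝ := ∑ i, pd i (pd i f) x

/-- Geodesic radius of the metric `e^{2 w(|x|)} |dx|^2`: its distance from the origin to a point
of Euclidean norm `r`. -/
noncomputable def geoRad (w : ℝ → ℝ) (r : ℝ) : ℝ := ∫ t in (0 : ℝ)..r, Real.exp (w t)

/-- Harmonicity for the metric `e^{2 w(|x|)} |dx|^2`, imposed away from the origin. -/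
def IsRotHarmonic (w : ℝ → ℝ) (u : Space n → ℝ) : Prop :=
  ContDiff ℝ 2 u ∧ ∀ x : Space n, x ≠ 0 →
    lap u x + ((n : ℝ) - 2) * (deriv w ‖x‖ / ‖x‖) * fderiv ℝ u x x = 0

/-- Growth of order at most `d` in the geodesic distance from the origin. -/
def HasGrowth (w : ℝ → ℝ) (d : ℝ) (u : Space n → ℝ) : Prop :=
  ∃ C : ℝ, ∀ x : Space n, |u x| ≤ C * (1 + geoRad w ‖x‖) ^ d

/-- A polynomial as a function. -/
noncomputable def evalFun (p : MvPolynomial (Fin n) ℝ) (x : Space n) : ℝ :=
  MvPolynomial.eval (fun i => x i) p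

/-- Harmonic polynomials of degree at most `k`, as functions. -/
noncomputable def harmPolys (n k : ℕ) : Submodule ℝ (Space n → ℝ) :=
  Submodule.span ℝ {f | ∃ p : MvPolynomial (Fin n) ℝ,
    p.totalDegree ≤ k ∧ f = evalFun p ∧ ∀ x, lap f x = 0}

end Vale.Agent.P225
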